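import Vale.Agent.P366M.Inv2
import Vale.Agent.P210.R2.H53.Base

/-!
# P210B: complete Riemannian manifolds in the language of `P366M.Mf0`
-/

open Filter Topology Set Metric
open scoped ContDiff
open Vale.Agent.P366.Stmt (E)
open Vale.Agent.P366M

noncomputable section

namespace Vale.Agent.P210B

/-- the length of the vector `v` for the matrix `A` -/
def qn {n : ℕ} (A : Fin n → Fin n → ℝ) (v : E n) : ℝ := √(∑ i, ∑ j, A i j * v i * v j)

/-- the distance of `M` is the Riemannian distance of the smooth metric `g`, and it is proper -/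
structure Riem {n : ℕ} {M : Type} [Mf0 n M] (g : Fld n M) : Prop where
  met : Met g
  prop : ProperSpace M
  mid : P210.R2.H53.ApproxMid M
  up : ∀ x : M, ∀ δ > (0 : ℝ), ∃ r > (0 : ℝ), ∀ y ∈ ball (pt x) r, ∀ z ∈ ball (pt x) r,
    dist ((ch x).symm y) ((ch x).symm z) ≤ (1 + δ) * qn (g x) (y - z)
  lo : ∀ x : M, ∀ δ > (0 : ℝ), ∃ r > (0 : ℝ), ∀ y ∈ ball (pt x) r, ∀ z ∈ ball (pt x) r,
    qn (g x) (y - z) ≤ (1 + δ) * dist ((ch x).symm y) ((ch x).symm z)

end Vale.Agent.P210B
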