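import Vale.Agent.P210B.Qn
import Vale.Agent.P366M.Calc

/-!
# P210B: gradient bounds and Lipschitz bounds
-/

open Filter Topology Set Metric
open scoped ContDiff
open Vale.Agent.P366
open Vale.Agent.P366.Stmt (E Field)
open Vale.Agent.P366M
open Vale.Agent.P210.R2.H53

noncomputable section

namespace Vale.Agent.P210B

/-- from local to global Lipschitz bounds in a proper length space -/
theorem sub_le_of_loc {X : Type*} [MetricSpace X] [ProperSpace X] (h : ApproxMid X) {f : X → ℝ}
    (hf : Continuous f) {K : ℝ} (x y : X)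
    (H : ∀ z, dist x z + dist z y = dist x y → ∀ᶠ w in 𝓝 z, f w - f z ≤ K * dist z w) :
    f y - f x ≤ K * dist x y := by
  let T : Set X := {z | dist x z + dist z y = dist x y ∧ f z - f x ≤ K * dist x z}
  have hT : IsCompact T := (isCompact_closedBall x (dist x y)).of_isClosed_subset
    ((isClosed_eq (by fun_prop) continuous_const).inter (isClosed_le (hf.sub continuous_const)
      (continuous_const.mul (continuous_const.dist continuous_id))))
    fun z hz => mem_closedBall'.2 (by linarith [hz.1, dist_nonneg (x := z) (y := y)])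
  have h1 : Icc 0 (dist x y) ⊆ (fun z => dist x z) '' T := by
    refine IsClosed.Icc_subset_of_forall_exists_gt
      ((hT.image (by fun_prop)).isClosed.inter isClosed_Icc) ⟨x, ⟨by simp, by simp⟩, dist_self x⟩ ?_
    rintro _ ⟨⟨z, ⟨a, b⟩, rfl⟩, -, c⟩ s hs
    obtain ⟨r, hr, k⟩ := Metric.eventually_nhds_iff_ball.1 (H z a)
    have hs' : dist x z < s := hs
    have c' : dist x z < dist x y := c
    set t := min (min (r / 2) (dist z y)) (s - dist x z) with ht
    have t0 : 0 < t := lt_min (lt_min (half_pos hr) (by linarith)) (by linarith)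
    have t1 : t ≤ r / 2 := (min_le_left _ _).trans (min_le_left _ _)
    obtain ⟨w, w1, w2⟩ := exists_mid h z y t t0.le ((min_le_left _ _).trans (min_le_right _ _))
    have e : dist x w = dist x z + t := by
      linarith [dist_triangle x z w, dist_triangle x w y]
    have k' := k w (mem_ball'.2 (by linarith))
    refine ⟨dist x w, ⟨w, ⟨by linarith, ?_⟩, rfl⟩, by linarith, ?_⟩
    · rw [e, mul_add, ← w1]
      linarith
    · linarith [min_le_right (min (r / 2) (dist z y)) (s - dist x z)]
  obtain ⟨z, ⟨a, b⟩, c⟩ := h1 ⟨dist_nonneg, le_rfl⟩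
  have c' : dist x z = dist x y := c
  have : z = y := dist_eq_zero.1 (by linarith)
  rwa [this] at b

theorem fderiv_le {n : ℕ} {v : E n → ℝ} {y : E n} (hv : DifferentiableAt ℝ v y)
    {A : Fin n → Fin n → ℝ} {K : ℝ} (h : ∀ᶠ z in 𝓝 y, v z - v y ≤ K * qn A (z - y)) (w : E n) :
    fderiv ℝ v y w ≤ K * qn A w := by
  have h1 : HasDerivAt (fun t : ℝ => v (y + t • w)) (fderiv ℝ v y w) 0 :=
    hv.hasFDerivAt.hasLineDerivAt w
  have h2 : Tendsto (fun t : ℝ => y + t • w) (𝓝[>] 0) (𝓝 y) := by
    refine tendsto_nhdsWithin_of_tendsto_nhds ?_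
    have : Continuous fun t : ℝ => y + t • w := by fun_prop
    simpa using this.tendsto 0
  refine le_of_tendsto h1.tendsto_slope_zero_right ?_
  filter_upwards [h2.eventually h, self_mem_nhdsWithin] with t a (b : 0 < t)
  rw [add_sub_cancel_left, qn_smul, abs_of_pos b] at a
  rw [zero_add, zero_smul, add_zero, smul_eq_mul, inv_mul_le_iff₀ b]
  linarith

variable {n : ℕ} {M : Type} [Mf0 n M] {g : Fld n M} {u : M → ℝ} {x : M} {K : ℝ}

theorem fd_eq (hu : DAt u x) (v : E n) : fd u x v = ∑ i, pd i u x * v i := by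
  rw [fd, P366Z.fderiv_eq_sum hu]
  exact Finset.sum_congr rfl fun i _ => mul_comm _ _

theorem fd_le (hg : Met g) (hu : DAt u x) (v : E n) : fd u x v ≤ gn g u x * qn (g x) v := by
  rw [fd_eq hu]
  exact dot_le (hg.pos x) _ v

theorem abs_fd_le (hg : Met g) (hu : DAt u x) (v : E n) :
    |fd u x v| ≤ gn g u x * qn (g x) v := by
  have := fd_le hg hu (-v)
  rw [map_neg, qn_neg] at this
  exact abs_le.2 ⟨by linarith, fd_le hg hu v⟩

theorem gn_le_of_fd (hg : Met g) (hu : DAt u x) (hK : 0 ≤ K)
    (h : ∀ v, fd u x v ≤ K * qn (g x) v) : gn g u x ≤ K :=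
  cn_le (hg.pos x) hK fun v => (fd_eq hu v).ge.trans (h v)

/-- a Lipschitz bound at a point bounds the gradient -/
theorem Riem.gn_le (h : Riem g) (hu : DAt u x) (hK : 0 ≤ K)
    (H : ∀ᶠ w in 𝓝 x, u w - u x ≤ K * dist x w) : gn g u x ≤ K := by
  refine le_of_forall_pos_le_add fun ε hε => ?_
  obtain ⟨r, hr, k⟩ := h.up x (ε / (K + 1)) (by positivity)
  refine gn_le_of_fd h.met hu (by positivity) (fderiv_le hu ?_)
  filter_upwards [ev_pt.1 H, ball_mem_nhds (pt x) hr] with z a b
  have c := k z b _ (mem_ball_self hr)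
  rw [symm_pt, dist_comm] at c
  rw [loc_pt]
  refine a.trans ((mul_le_mul_of_nonneg_left c hK).trans ?_)
  rw [← mul_assoc]
  refine mul_le_mul_of_nonneg_right ?_ (qn_nonneg _ _)
  have : K * (ε / (K + 1)) ≤ ε := by
    rw [← mul_div_assoc, div_le_iff₀ (by positivity)]
    nlinarith
  linarith

/-- a gradient bound at a point gives a Lipschitz bound at the point -/
theorem Riem.ev_sub_le (h : Riem g) (hu : DAt u x) (H : gn g u x < K) :
    ∀ᶠ w in 𝓝 x, u w - u x ≤ K * dist x w := by
  obtain ⟨C, hC, c⟩ := norm_le_qn (h.met.pos x)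
  have G := gn_nonneg g u x
  set a := gn g u x with ha
  set b := (a + K) / 2 with hb
  have b0 : 0 < b := by linarith
  obtain ⟨r, hr, k⟩ := h.lo x ((K - b) / b) (div_pos (by linarith) b0)
  have o := hu.hasFDerivAt.isLittleO.bound (c := (b - a) / C) (div_pos (by linarith) hC)
  refine ev_pt.2 ?_
  filter_upwards [o, ball_mem_nhds (pt x) hr] with z p q
  have s := k z q _ (mem_ball_self hr)
  rw [symm_pt, dist_comm] at s
  have t := fd_le h.met hu (z - pt x)
  have p1 := (le_abs_self _).trans (p.trans (mul_le_mul_of_nonneg_left (c _)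
    (div_pos (by linarith) hC).le))
  rw [loc_pt, ← mul_assoc, div_mul_cancel₀ _ hC.ne'] at p1
  have s1 := mul_le_mul_of_nonneg_left s b0.le
  rw [← mul_assoc, mul_add, mul_one, mul_div_cancel₀ _ b0.ne', add_sub_cancel] at s1
  have e : loc (ch x) u z = u ((ch x).symm z) := rfl
  have e'' : qn (mat g x) (z - pt x) = qn (g x) (z - pt x) := rfl
  rw [e, e''] at p1
  rw [← ha] at t
  nlinarith

/-- a gradient bound along the minimising geodesics gives a Lipschitz bound -/
theorem Riem.sub_le (h : Riem g) (hu : Continuous u) (x y : M)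
    (H : ∀ z, dist x z + dist z y = dist x y → DAt u z ∧ gn g u z ≤ K) :
    u y - u x ≤ K * dist x y := by
  have := h.prop
  refine le_of_forall_pos_le_add fun ε hε => ?_
  have d := dist_nonneg (x := x) (y := y)
  have k := sub_le_of_loc h.mid hu (K := K + ε / (dist x y + 1)) x y fun z hz =>
    h.ev_sub_le (H z hz).1 ((H z hz).2.trans_lt (lt_add_of_pos_right _ (by positivity)))
  have : ε / (dist x y + 1) * dist x y ≤ ε := by
    rw [div_mul_eq_mul_div, div_le_iff₀ (by positivity)]
    nlinarith
  linarith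

/-- a global gradient bound gives a global Lipschitz bound -/
theorem Riem.lip (h : Riem g) (hu : ∀ z, DAt u z) (H : ∀ z, gn g u z ≤ K) (x y : M) :
    |u x - u y| ≤ K * dist x y := by
  have c : Continuous u := continuous_iff_continuousAt.2 fun z => (hu z).continuousAt
  have a := h.sub_le c x y fun z _ => ⟨hu z, H z⟩
  have b := h.sub_le c y x fun z _ => ⟨hu z, H z⟩
  rw [dist_comm] at b
  exact abs_le.2 ⟨by linarith, b⟩

/-- a gradient bound on a ball gives a Lipschitz bound from the centre -/
theorem Riem.lip_ball (h : Riem g) (hu : ∀ z, DAt u z) {x y : M}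
    (H : ∀ z, dist x z ≤ dist x y → gn g u z ≤ K) : |u x - u y| ≤ K * dist x y := by
  have c : Continuous u := continuous_iff_continuousAt.2 fun z => (hu z).continuousAt
  have a := h.sub_le c x y fun z k => ⟨hu z, H z (by linarith [dist_nonneg (x := z) (y := y)])⟩
  have b := h.sub_le c y x fun z k => ⟨hu z, H z (by
    rw [dist_comm y x, dist_comm z x] at k
    linarith [dist_nonneg (x := y) (y := z)])⟩
  rw [dist_comm] at b
  exact abs_le.2 ⟨by linarith, b⟩

end Vale.Agent.P210B
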