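import Vale.Agent.P210B.Mk

/-!
# P210B: the reduction of the question to the language of `Mf0`
-/

open Filter Topology Set Metric Bundle IsManifold
open scoped ContDiff Manifold
open Vale.Agent.P366.Stmt (E)
open Vale.Agent.P366M Vale.Agent.P366N
open Vale.Agent.P210.R2.H53

set_option maxSynthPendingDepth 3

noncomputable section

namespace Vale.Agent.P210B

theorem width_empty {X : Type} [MetricSpace X] [IsEmpty X] (d : ℕ) (C : ℝ) :
    UrysohnWidthLE X d C :=
  ⟨Unit, ⊥, fun x => isEmptyElim x, fun s hs => absurd hs (notMem_empty s),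
    continuous_of_discreteTopology, fun x => isEmptyElim x⟩

/-- the statement in the language of `Mf0` -/
def Goal : Prop := ∀ n : ℕ, 3 ≤ n → ∃ C : ℝ, ∀ (M : Type) [Mf0 n M] (g : Fld n M), Riem g →
  (∀ x, 1 ≤ scal g x) → UrysohnWidthLE M (n - 2) C

/-- the question -/
def Q1 : Prop := ∀ n : ℕ, 3 ≤ n → ∃ C : ℝ,
  ∀ (E : Type) [NormedAddCommGroup E] [NormedSpace ℝ E] [FiniteDimensional ℝ E]
    (M : Type) [MetricSpace M] [ChartedSpace E M]
    [RiemannianBundle (fun x : M => TangentSpace 𝓘(ℝ, E) x)]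
    [IsManifold 𝓘(ℝ, E) ∞ M]
    [IsContMDiffRiemannianBundle 𝓘(ℝ, E) ∞ E (fun x : M => TangentSpace 𝓘(ℝ, E) x)]
    [IsRiemannianManifold 𝓘(ℝ, E) M],
    Module.finrank ℝ E = n → CompleteSpace M → ScalGE E M 1 → UrysohnWidthLE M (n - 2) C

theorem main_of (H : Goal) : Q1 := fun n hn => by
  obtain ⟨C, h⟩ := H n hn
  refine ⟨C, fun V _ _ _ M _ _ _ _ _ _ hV hc hs => ?_⟩
  rcases isEmpty_or_nonempty M with hM | hM
  · exact width_empty _ _
  have := properSpace_riemannian V M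
  let L : V ≃L[ℝ] E n := ContinuousLinearEquiv.ofFinrankEq (by simp [hV])
  choose c hc' using (atl M L).pref
  let _ := (atl M L).mf0 c hc'
  have hL : ∀ x : M, bk L (ch x) ∈ maximalAtlas 𝓘(ℝ, V) ∞ M := fun x => bk_mem L (hc' x).1
  exact h M (gm L) (riem_gm hL) (scal_gm hL hs)

end Vale.Agent.P210B
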