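import Vale.Agent.P210B.Defs

/-!
# P210B: lengths of vectors and covectors
-/

open Filter Topology Set Metric
open scoped ContDiff
open Vale.Agent.P366
open Vale.Agent.P366.Stmt (E Field)

noncomputable section

namespace Vale.Agent.P210B

variable {n : ℕ} {A : Matrix (Fin n) (Fin n) ℝ}

/-- the length of the covector `w` for the matrix `A` -/
def cn (A : Matrix (Fin n) (Fin n) ℝ) (w : Fin n → ℝ) : ℝ := √(∑ i, ∑ j, A⁻¹ i j * w i * w j)

theorem qn_nonneg (A : Fin n → Fin n → ℝ) (v : E n) : 0 ≤ qn A v := Real.sqrt_nonneg _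

theorem cn_nonneg (A : Matrix (Fin n) (Fin n) ℝ) (w : Fin n → ℝ) : 0 ≤ cn A w :=
  Real.sqrt_nonneg _

theorem quad_nonneg (hA : A.PosDef) (v : Fin n → ℝ) : 0 ≤ ∑ i, ∑ j, A i j * v i * v j := by
  have := hA.posSemidef.dotProduct_mulVec_nonneg v
  refine this.trans_eq ?_
  simp only [dotProduct, Matrix.mulVec, star_trivial, Finset.mul_sum]
  exact Finset.sum_congr rfl fun i _ => Finset.sum_congr rfl fun j _ => by ring

theorem sy_of (hA : A.PosDef) (i j : Fin n) : A i j = A j i := by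
  simpa using (hA.isHermitian.apply j i)

theorem qn_sq (hA : A.PosDef) (v : E n) : qn A v ^ 2 = ∑ i, ∑ j, A i j * v i * v j :=
  Real.sq_sqrt (quad_nonneg hA _)

theorem cn_sq (hA : A.PosDef) (w : Fin n → ℝ) : cn A w ^ 2 = ∑ i, ∑ j, A⁻¹ i j * w i * w j :=
  Real.sq_sqrt (quad_nonneg hA.inv _)

theorem bil_le (hA : A.PosDef) (v w : E n) : ∑ i, ∑ j, A i j * v i * w j ≤ qn A v * qn A w := by
  refine (abs_le_of_sq_le_sq' ?_ (mul_nonneg (qn_nonneg _ _) (qn_nonneg _ _))).2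
  rw [mul_pow, qn_sq hA, qn_sq hA]
  exact P366Z.quad_cs (sy_of hA) (quad_nonneg hA) _ _

theorem qn_smul (A : Fin n → Fin n → ℝ) (t : ℝ) (v : E n) : qn A (t • v) = |t| * qn A v := by
  unfold qn
  rw [← Real.sqrt_sq_eq_abs, ← Real.sqrt_mul (sq_nonneg _), Finset.mul_sum]
  congr 1
  refine Finset.sum_congr rfl fun i _ => ?_
  rw [Finset.mul_sum]
  exact Finset.sum_congr rfl fun j _ => by simp only [PiLp.smul_apply, smul_eq_mul]; ring

theorem qn_neg (A : Fin n → Fin n → ℝ) (v : E n) : qn A (-v) = qn A v := by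
  rw [← neg_one_smul ℝ v, qn_smul]
  simp

theorem qn_sub_comm (A : Fin n → Fin n → ℝ) (v w : E n) : qn A (v - w) = qn A (w - v) := by
  rw [← qn_neg, neg_sub]

/-- raising an index -/
theorem raise (hA : A.PosDef) (w : Fin n → ℝ) : ∃ z : E n, qn A z = cn A w ∧
    ∀ v : E n, ∑ i, ∑ j, A i j * z i * v j = ∑ i, w i * v i := by
  have h1 : ∀ j, ∑ i, A i j * (A⁻¹.mulVec w) i = w j := fun j => by
    have : A.mulVec (A⁻¹.mulVec w) = w := by
      rw [Matrix.mulVec_mulVec, Matrix.mul_nonsing_inv _ hA.det_pos.ne'.isUnit, Matrix.one_mulVec]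
    rw [← congrFun this j]
    exact Finset.sum_congr rfl fun i _ => by rw [sy_of hA]
  have h2 : ∀ v : E n, ∑ i, ∑ j, A i j * (A⁻¹.mulVec w) i * v j = ∑ i, w i * v i := fun v => by
    rw [Finset.sum_comm]
    exact Finset.sum_congr rfl fun j _ => by rw [← Finset.sum_mul, h1]
  refine ⟨WithLp.toLp 2 (A⁻¹.mulVec w), ?_, h2⟩
  unfold qn cn
  congr 1
  refine (h2 (WithLp.toLp 2 (A⁻¹.mulVec w))).trans (Finset.sum_congr rfl fun i _ => ?_)
  simp only [Matrix.mulVec, dotProduct, Finset.mul_sum]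
  exact Finset.sum_congr rfl fun j _ => by ring

theorem dot_le (hA : A.PosDef) (w : Fin n → ℝ) (v : E n) : ∑ i, w i * v i ≤ cn A w * qn A v := by
  obtain ⟨z, h1, h2⟩ := raise hA w
  rw [← h1, ← h2]
  exact bil_le hA z v

theorem cn_le (hA : A.PosDef) {w : Fin n → ℝ} {K : ℝ} (hK : 0 ≤ K)
    (h : ∀ v : E n, ∑ i, w i * v i ≤ K * qn A v) : cn A w ≤ K := by
  obtain ⟨z, h1, h2⟩ := raise hA w
  have h3 := h z
  rw [← h2, ← qn_sq hA, h1] at h3
  rcases (cn_nonneg A w).eq_or_lt with h0 | h0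
  · rwa [← h0]
  · nlinarith

theorem abs_quad_le (B : Fin n → Fin n → ℝ) (v : E n) :
    |∑ i, ∑ j, B i j * v i * v j| ≤ (∑ i, ∑ j, |B i j|) * ‖v‖ ^ 2 := by
  rw [Finset.sum_mul]
  refine (Finset.abs_sum_le_sum_abs _ _).trans (Finset.sum_le_sum fun i _ => ?_)
  rw [Finset.sum_mul]
  refine (Finset.abs_sum_le_sum_abs _ _).trans (Finset.sum_le_sum fun j _ => ?_)
  rw [abs_mul, abs_mul, mul_assoc, sq]
  exact mul_le_mul_of_nonneg_left (mul_le_mul (PiLp.norm_apply_le v i) (PiLp.norm_apply_le v j)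
    (abs_nonneg _) (norm_nonneg _)) (abs_nonneg _)

theorem qn_le_norm (B : Fin n → Fin n → ℝ) : ∃ C > (0 : ℝ), ∀ v : E n, qn B v ≤ C * ‖v‖ := by
  have h0 : 0 ≤ ∑ i, ∑ j, |B i j| := by positivity
  refine ⟨√(∑ i, ∑ j, |B i j|) + 1, by positivity, fun v => ?_⟩
  have h1 : qn B v ≤ √(∑ i, ∑ j, |B i j|) * ‖v‖ := by
    rw [← Real.sqrt_sq (norm_nonneg v), ← Real.sqrt_mul h0]
    exact Real.sqrt_le_sqrt ((le_abs_self _).trans (abs_quad_le B v))
  nlinarith [norm_nonneg v]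

theorem norm_le_qn (hA : A.PosDef) : ∃ C > (0 : ℝ), ∀ v : E n, ‖v‖ ≤ C * qn A v := by
  obtain ⟨C, hC, h⟩ := qn_le_norm (fun i j => A⁻¹ i j)
  refine ⟨C, hC, fun v => ?_⟩
  have h1 := dot_le hA (fun i => v i) v
  have h2 : cn A (fun i => v i) ≤ C * ‖v‖ := h v
  have h3 : ∑ i, v i * v i = ‖v‖ ^ 2 := by
    rw [EuclideanSpace.real_norm_sq_eq]
    exact Finset.sum_congr rfl fun i _ => (sq _).symm
  rcases (norm_nonneg v).eq_or_lt with h0 | h0
  · rw [← h0]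
    exact mul_nonneg hC.le (qn_nonneg _ _)
  · have h4 := mul_le_mul_of_nonneg_right h2 (qn_nonneg A v)
    refine le_of_mul_le_mul_left ?_ h0
    nlinarith

theorem near {G : Field n} (hG : P366Z.Met G) (y₀ : E n) {δ : ℝ} (hδ : 0 < δ) :
    ∀ᶠ y in 𝓝 y₀, ∀ v, qn (G y) v ≤ (1 + δ) * qn (G y₀) v ∧
      qn (G y₀) v ≤ (1 + δ) * qn (G y) v := by
  obtain ⟨C, hC, h⟩ := norm_le_qn (hG.pos y₀)
  have h1 : Continuous fun y => (∑ i, ∑ j, |G y i j - G y₀ i j|) * C ^ 2 :=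
    (continuous_finsetSum _ fun i _ => continuous_finsetSum _ fun j _ =>
      ((hG.sm i j).continuous.sub continuous_const).abs).mul continuous_const
  have h2 := (h1.tendsto y₀).eventually (gt_mem_nhds (a := δ / (1 + δ)) (by simp; positivity))
  filter_upwards [h2] with y hy v
  have h3 := abs_quad_le (fun i j => G y i j - G y₀ i j) v
  have a := qn_sq (hG.pos y) v
  have b := qn_sq (hG.pos y₀) v
  have e : ∑ i, ∑ j, (G y i j - G y₀ i j) * v i * v j = qn (G y) v ^ 2 - qn (G y₀) v ^ 2 := by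
    erw [a, b]
    simp only [sub_mul, Finset.sum_sub_distrib]
    rfl
  have h4 : ‖v‖ ^ 2 ≤ C ^ 2 * qn (G y₀) v ^ 2 := by
    rw [← mul_pow]
    exact pow_le_pow_left₀ (norm_nonneg _) (h v) 2
  have h5 : |qn (G y) v ^ 2 - qn (G y₀) v ^ 2| ≤ δ / (1 + δ) * qn (G y₀) v ^ 2 := by
    rw [← e]
    refine h3.trans ((mul_le_mul_of_nonneg_left h4 (by positivity)).trans ?_)
    rw [← mul_assoc]
    exact mul_le_mul_of_nonneg_right hy.le (sq_nonneg _)
  have h6 : (1 + δ) * |qn (G y) v ^ 2 - qn (G y₀) v ^ 2| ≤ δ * qn (G y₀) v ^ 2 := by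
    refine (mul_le_mul_of_nonneg_left h5 (by positivity)).trans_eq ?_
    field_simp
  have p := qn_nonneg (G y) v
  have q := qn_nonneg (G y₀) v
  have h7 := mul_le_mul_of_nonneg_left (le_abs_self (qn (G y) v ^ 2 - qn (G y₀) v ^ 2))
    (by positivity : 0 ≤ 1 + δ)
  have h8 := mul_le_mul_of_nonneg_left (neg_le_abs (qn (G y) v ^ 2 - qn (G y₀) v ^ 2))
    (by positivity : 0 ≤ 1 + δ)
  have p2 := sq_nonneg (qn (G y) v)
  have q2 := sq_nonneg (qn (G y₀) v)
  constructor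
  · refine (abs_le_of_sq_le_sq' ?_ (by positivity)).2
    rw [mul_pow]
    refine le_of_mul_le_mul_left ?_ (by positivity : 0 < 1 + δ)
    have := mul_nonneg (by positivity : 0 ≤ δ + 3 * δ ^ 2 + δ ^ 3) q2
    nlinarith
  · refine (abs_le_of_sq_le_sq' ?_ (by positivity)).2
    rw [mul_pow]
    have := mul_nonneg (by positivity : 0 ≤ δ + δ ^ 2) p2
    nlinarith

end Vale.Agent.P210B
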