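import Vale.Agent.P210B.Scal
import Vale.Agent.P210B.Qn
import Vale.Agent.P366N.Mk0

/-!
# P210B: from the Riemannian manifolds of Mathlib to `Mf0`
-/

open Filter Topology Set Metric Bundle IsManifold
open scoped ContDiff Manifold
open Vale.Agent.P366
open Vale.Agent.P366.Stmt (E Field)
open Vale.Agent.P366M Vale.Agent.P366N
open Vale.Agent.P210.R2.H53

set_option maxSynthPendingDepth 3

noncomputable section

namespace Vale.Agent.P210B

variable {n : ℕ} {V : Type} [NormedAddCommGroup V] [NormedSpace ℝ V] {M : Type}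

theorem exists_onb [FiniteDimensional ℝ V] (B : V →L[ℝ] V →L[ℝ] ℝ) (hsym : ∀ v w, B v w = B w v)
    (hpos : ∀ v, v ≠ 0 → 0 < B v v) : ∃ b : Module.Basis (Fin (Module.finrank ℝ V)) ℝ V,
      ∀ i j, B (b i) (b j) = if i = j then 1 else 0 := by
  have : Invertible (2 : ℝ) := invertibleOfNonzero two_ne_zero
  let F : LinearMap.BilinForm ℝ V := LinearMap.mk₂ ℝ (fun x y => B x y)
      (by intro a b c; simp) (by intro r a c; simp)
      (by intro a b c; simp) (by intro r a c; simp)
  have hF : ∀ x y, F x y = B x y := fun x y => rfl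
  have hFs : LinearMap.IsSymm F := ⟨fun x y => by
    rw [RingHom.id_apply, hF, hF]
    exact hsym x y⟩
  obtain ⟨v, hv⟩ := LinearMap.BilinForm.exists_orthogonal_basis hFs
  have hvpos : ∀ i, 0 < B (v i) (v i) := fun i => hpos _ (v.ne_zero i)
  have hu : ∀ i, IsUnit ((√(B (v i) (v i)))⁻¹ : ℝ) := fun i =>
    (inv_ne_zero (Real.sqrt_pos.2 (hvpos i)).ne').isUnit
  refine ⟨v.isUnitSMul hu, fun i j => ?_⟩
  rw [Module.Basis.isUnitSMul_apply, Module.Basis.isUnitSMul_apply]
  rw [map_smul, map_smul, _root_.smul_apply, smul_eq_mul, smul_eq_mul]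
  split_ifs with hij
  · subst hij
    have h1 := hvpos i
    have h2 : √(B (v i) (v i)) ≠ 0 := (Real.sqrt_pos.2 h1).ne'
    field_simp
    exact (Real.sq_sqrt h1.le).symm
  · have h1 : B (v i) (v j) = 0 := by
      rw [← hF]
      exact hv hij
    rw [h1]
    simp

section top

variable [TopologicalSpace M]

/-- a chart with values in `V` -/
def bk (L : V ≃L[ℝ] E n) (e : Ch n M) : OpenPartialHomeomorph M V :=
  e.transHomeomorph L.symm.toHomeomorph

/-- a chart with values in Euclidean space -/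
def fw (L : V ≃L[ℝ] E n) (c : OpenPartialHomeomorph M V) : Ch n M :=
  c.transHomeomorph L.toHomeomorph

variable (L : V ≃L[ℝ] E n)

theorem bk_apply (e : Ch n M) (x : M) : bk L e x = L.symm (e x) := rfl

theorem bk_symm (e : Ch n M) (z : V) : (bk L e).symm z = e.symm (L z) := rfl

theorem bk_source (e : Ch n M) : (bk L e).source = e.source := rfl

theorem bk_target (e : Ch n M) (z : V) : z ∈ (bk L e).target ↔ L z ∈ e.target := Iff.rfl

theorem fw_apply (c : OpenPartialHomeomorph M V) (x : M) : fw L c x = L (c x) := rfl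

theorem fw_symm (c : OpenPartialHomeomorph M V) (y : E n) : (fw L c).symm y = c.symm (L.symm y) :=
  rfl

theorem fw_source (c : OpenPartialHomeomorph M V) : (fw L c).source = c.source := rfl

theorem fw_target (c : OpenPartialHomeomorph M V) (y : E n) :
    y ∈ (fw L c).target ↔ L.symm y ∈ c.target := Iff.rfl

variable [ChartedSpace V M]

theorem mem_max {c : OpenPartialHomeomorph M V} (h : ∀ c' ∈ atlas V M, Cp c c' ∧ Cp c' c) :
    c ∈ maximalAtlas 𝓘(ℝ, V) ∞ M := by
  have key : ∀ a b : OpenPartialHomeomorph M V, Cp a b → Cp b a →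
      a.symm ≫ₕ b ∈ contDiffGroupoid ∞ 𝓘(ℝ, V) := fun a b h1 h2 => by
    rw [contDiffGroupoid, mem_groupoid_of_pregroupoid]
    simp only [contDiffPregroupoid, modelWithCornersSelf_coe, modelWithCornersSelf_coe_symm,
      Function.comp_id, Function.id_comp, preimage_id_eq, id_eq, range_id, inter_univ]
    exact ⟨fun y hy => (h1 y hy.1 hy.2).contDiffWithinAt,
      fun y hy => (h2 y hy.1 hy.2).contDiffWithinAt⟩
  exact fun c' hc' => ⟨key _ _ (h c' hc').1 (h c' hc').2, key _ _ (h c' hc').2 (h c' hc').1⟩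

theorem cp_of_max {c c' : OpenPartialHomeomorph M V} (h : c ∈ maximalAtlas 𝓘(ℝ, V) ∞ M)
    (h' : c' ∈ maximalAtlas 𝓘(ℝ, V) ∞ M) : Cp c c' := fun y hy hs => by
  have k := compatible_of_mem_maximalAtlas h h'
  rw [contDiffGroupoid, mem_groupoid_of_pregroupoid] at k
  have k2 := k.1
  simp only [contDiffPregroupoid, modelWithCornersSelf_coe, modelWithCornersSelf_coe_symm,
    Function.comp_id, Function.id_comp, preimage_id_eq, id_eq, range_id, inter_univ] at k2
  exact k2.contDiffAt ((c.symm ≫ₕ c').open_source.mem_nhds ⟨hy, hs⟩)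

variable [IsManifold 𝓘(ℝ, V) ∞ M]

variable (M) in
/-- the atlas with values in Euclidean space -/
def atl : Atl M (E n) where
  s := fw L '' atlas V M
  cov p := ⟨_, ⟨_, chart_mem_atlas V p, rfl⟩, mem_chart_source V p⟩
  cp := by
    rintro _ ⟨c, hc, rfl⟩ _ ⟨c', hc', rfl⟩ y hy hs
    exact L.contDiff.contDiffAt.comp y ((cp_of_max (subset_maximalAtlas hc)
      (subset_maximalAtlas hc') _ hy hs).comp y L.symm.contDiff.contDiffAt)

theorem bk_mem {e : Ch n M} (h : (atl M L).Mx e) : bk L e ∈ maximalAtlas 𝓘(ℝ, V) ∞ M := by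
  refine mem_max fun c hc => ⟨fun z hz hs => ?_, fun z hz hs => ?_⟩
  · have h1 := (h _ ⟨c, hc, rfl⟩).1 (L z) hz hs
    have h2 := L.symm.contDiff.contDiffAt.comp z (h1.comp z L.contDiff.contDiffAt)
    refine h2.congr_of_eventuallyEq (.of_forall fun w => ?_)
    simp only [Function.comp, fw_apply, bk_symm, L.symm_apply_apply]
  · have h1 := (h _ ⟨c, hc, rfl⟩).2 (L z) (by rwa [fw_target, L.symm_apply_apply])
      (by rwa [fw_symm, L.symm_apply_apply])
    have h2 := L.symm.contDiff.contDiffAt.comp z (h1.comp z L.contDiff.contDiffAt)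
    refine h2.congr_of_eventuallyEq (.of_forall fun w => ?_)
    simp only [Function.comp, fw_symm, bk_apply, L.symm_apply_apply]

end top

variable [Mf0 n M] [ChartedSpace V M] [RiemannianBundle (fun x : M => TangentSpace 𝓘(ℝ, V) x)]

/-- the metric -/
def gm (L : V ≃L[ℝ] E n) : Fld n M := fun x => cmp L (chartG (bk L (ch x))) (pt x)

variable [FiniteDimensional ℝ V] [IsManifold 𝓘(ℝ, V) ∞ M]
  [IsContMDiffRiemannianBundle 𝓘(ℝ, V) ∞ V (fun x : M => TangentSpace 𝓘(ℝ, V) x)]
  {L : V ≃L[ℝ] E n} (hL : ∀ x : M, bk L (ch x) ∈ maximalAtlas 𝓘(ℝ, V) ∞ M)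

omit [ChartedSpace V M] [RiemannianBundle (fun x : M => TangentSpace 𝓘(ℝ, V) x)]
  [FiniteDimensional ℝ V] [IsManifold 𝓘(ℝ, V) ∞ M]
  [IsContMDiffRiemannianBundle 𝓘(ℝ, V) ∞ V (fun x : M => TangentSpace 𝓘(ℝ, V) x)] in
theorem mem_bk (x : M) (z : V) : z ∈ (bk L (ch x)).target := mem_tgt (ch_mem x) (L z)

include hL

theorem lr (x : M) : LocalRiem (chartG (bk L (ch x))) univ :=
  ⟨isOpen_univ, (contDiffOn_chartG (hL x)).mono fun z _ => mem_bk x z,
    fun z _ => chartG_symm _ z, fun z _ => chartG_pos (hL x) (mem_bk x z)⟩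

theorem rep_gm (x : M) : rep (ch x) (gm L) = cmp L (chartG (bk L (ch x))) := by
  funext y i j
  have he := ch_mem x
  set p := (ch x).symm y with hp
  have h1 := chartG_change (hL x) (hL p) (x := p) (symm_mem he y) (mem_ch p) (bs L i) (bs L j)
  have h2 : bk L (ch x) p = L.symm y := by rw [bk_apply, right_inv he]
  have hd := tm_diff he (ch_mem p) (y := y) (mem_ch p)
  have h3 : HasFDerivAt (bk L (ch p) ∘ (bk L (ch x)).symm) ((L.symm : E n →L[ℝ] V).comp
      ((fderiv ℝ (tm (ch x) (ch p)) y).comp (L : V →L[ℝ] E n))) (L.symm y) := by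
    have k : HasFDerivAt (tm (ch x) (ch p)) (fderiv ℝ (tm (ch x) (ch p)) y) (L (L.symm y)) := by
      rw [L.apply_symm_apply]
      exact hd.hasFDerivAt
    exact L.symm.hasFDerivAt.comp _ (k.comp _ L.hasFDerivAt)
  rw [h2, h3.fderiv] at h1
  simp only [ContinuousLinearMap.comp_apply, ContinuousLinearEquiv.coe_coe, bs,
    L.apply_symm_apply] at h1
  rw [quad_cmp] at h1
  refine Eq.trans ?_ h1
  refine Finset.sum_congr rfl fun k _ => Finset.sum_congr rfl fun l _ => ?_
  rw [← jac_eq hd, ← jac_eq hd, mul_comm, mul_assoc]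
  rfl

theorem met_gm : Met (gm L : Fld n M) where
  sm := smT_of fun x => ⟨ch x, ch_mem x, mem_ch x, fun i j => by
    rw [rep_gm hL]
    exact ((met_cmp (lr hL x)).sm i j).contDiffAt⟩
  sy x := (met_cmp (lr hL x)).sy _
  pos x := (met_cmp (lr hL x)).pos _

theorem scal_gm {σ : ℝ} (h : ScalGE V M σ) (x : M) : σ ≤ scal (gm L) x := by
  obtain ⟨Γ, h1, h2⟩ := h _ (hL x) (L.symm (pt x)) (mem_bk x _)
  obtain ⟨b, hb⟩ := exists_onb (chartG (bk L (ch x)) (L.symm (pt x))) (chartG_symm _ _)
    (chartG_pos (hL x) (mem_bk x _))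
  have h3 := h2 b hb
  simp only [sectNum_eq (hL x) (mem_bk x _) h1] at h3
  rw [scal_cmp (lr hL x) _ b hb] at h3
  rw [scal, rep_gm hL]
  exact h3

omit hL [FiniteDimensional ℝ V] [IsManifold 𝓘(ℝ, V) ∞ M]
  [IsContMDiffRiemannianBundle 𝓘(ℝ, V) ∞ V (fun x : M => TangentSpace 𝓘(ℝ, V) x)] in
theorem sqrt_eq (c : OpenPartialHomeomorph M V) (z v : V) :
    √(chartG c z v v) = qn (cmp L (chartG c) (L z)) (L v) := by
  conv_lhs => rw [← L.symm_apply_apply v, quad_cmp, ← L.symm_apply_apply z]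
  rfl

variable [IsRiemannianManifold 𝓘(ℝ, V) M]

theorem up_gm (x : M) (δ : ℝ) (hδ : 0 < δ) : ∃ r > (0 : ℝ), ∀ y ∈ ball (pt x) r,
    ∀ z ∈ ball (pt x) r,
      dist ((ch x).symm y) ((ch x).symm z) ≤ (1 + δ) * qn (gm L x) (y - z) := by
  obtain ⟨r, hr, h⟩ := Metric.eventually_nhds_iff_ball.1
    (near (met_cmp (L := L) (lr hL x)) (pt x) hδ)
  refine ⟨r, hr, fun y hy z hz => ?_⟩
  have h1 := dist_le_chart (hL x) (c := fun t => L.symm (z + t • (y - z)))
    (c' := fun _ => L.symm (y - z)) zero_le_one (fun t _ => by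
      have := (((hasDerivAt_id t).smul_const (y - z)).const_add z)
      rw [one_smul] at this
      exact ((L.symm : E n →L[ℝ] V).hasFDerivAt.comp_hasDerivAt t this).hasDerivWithinAt)
    continuousOn_const fun t _ => mem_bk x _
  simp only [bk_symm, L.apply_symm_apply, zero_smul, add_zero, one_smul, add_sub_cancel,
    sqrt_eq (L := L)] at h1
  rw [dist_comm]
  refine h1.trans ?_
  have h2 := intervalIntegral.norm_integral_le_of_norm_le_const (a := 0) (b := 1)
    (f := fun t : ℝ => qn (cmp L (chartG (bk L (ch x))) (z + t • (y - z))) (y - z))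
    (C := (1 + δ) * qn (gm L x) (y - z)) fun t ht => by
      rw [Real.norm_of_nonneg (qn_nonneg _ _)]
      rw [uIoc_of_le zero_le_one] at ht
      exact (h _ ((convex_ball _ _).add_smul_sub_mem hz hy ⟨ht.1.le, ht.2⟩) _).1
  rw [sub_zero, abs_one, mul_one] at h2
  exact (le_abs_self _).trans h2

theorem lo_gm (x : M) (δ : ℝ) (hδ : 0 < δ) : ∃ r > (0 : ℝ), ∀ y ∈ ball (pt x) r,
    ∀ z ∈ ball (pt x) r,
      qn (gm L x) (y - z) ≤ (1 + δ) * dist ((ch x).symm y) ((ch x).symm z) := by
  have he := ch_mem x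
  have hG := met_cmp (L := L) (lr hL x)
  have h0 : ∀ᶠ p in 𝓝 x, p ∈ (ch x).source ∧ ∀ v, qn (gm L x) v ≤
      (1 + δ) * qn (cmp L (chartG (bk L (ch x))) (ch x p)) v := by
    refine ev_pt.2 ?_
    filter_upwards [near hG (pt x) hδ] with y hy
    rw [right_inv he]
    exact ⟨symm_mem he y, fun v => (hy v).2⟩
  obtain ⟨ρ, hρ, h⟩ := Metric.eventually_nhds_iff_ball.1 h0
  obtain ⟨r, hr, h1⟩ := Metric.eventually_nhds_iff_ball.1
    ((tendsto_pt x).eventually (ball_mem_nhds x (by positivity : 0 < ρ / 4)))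
  refine ⟨r, hr, fun y hy z hz => ?_⟩
  have a := mem_ball.1 (h1 y hy)
  have b := mem_ball.1 (h1 z hz)
  set p := (ch x).symm z with hp
  set q := (ch x).symm y with hq
  have hpq : dist p q < ρ / 2 := by linarith [dist_triangle_right p q x]
  have key : ∀ ε > (0 : ℝ), ε ≤ ρ / 4 → qn (gm L x) (y - z) ≤ (1 + δ) * (dist p q + ε) := by
    intro ε hε hε'
    have hb : ball p (3 * ρ / 4) ⊆ ball x ρ := ball_subset_ball' (by linarith)
    obtain ⟨c, c', k1, k2, k3, k4, k5, k6⟩ := exists_chart_curve (hL x) (x := p) (y := q)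
      (r := 3 * ρ / 4) (fun w hw => (h w (hb hw)).1) hε (by linarith)
    simp only [sqrt_eq (L := L)] at k6
    have hc : ContinuousOn c (Icc 0 1) := fun t ht => (k1 t ht).continuousWithinAt
    set A := gm L x with hA
    have hAp : Matrix.PosDef (A : Matrix (Fin n) (Fin n) ℝ) := hG.pos _
    set B := chartG (bk L (ch x)) (L.symm (pt x)) with hB
    have hBA : ∀ v w, B v w = ∑ i, ∑ j, A i j * L v i * L w j := fun v w => by
      conv_lhs => rw [← L.symm_apply_apply v, ← L.symm_apply_apply w, quad_cmp]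
      rfl
    have i1 : ContinuousOn (fun t => B (L.symm (y - z)) (c' t)) (Icc 0 1) :=
      (B _).continuous.comp_continuousOn k2
    have i2 : ContinuousOn (fun t => qn (cmp L (chartG (bk L (ch x))) (L (c t))) (L (c' t)))
        (Icc 0 1) := by
      simp only [← sqrt_eq]
      exact ((((contDiffOn_univ.1 (lr hL x).smooth).continuous.comp_continuousOn hc).clm_apply
        k2).clm_apply k2).sqrt
    have e1 := intervalIntegral.integral_eq_sub_of_hasDerivAt_of_le zero_le_one
      (f := fun t => B (L.symm (y - z)) (c t)) (f' := fun t => B (L.symm (y - z)) (c' t))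
      ((B _).continuous.comp_continuousOn hc) (fun t ht => (B _).hasFDerivAt.comp_hasDerivAt t
        ((k1 t (Ioo_subset_Icc_self ht)).hasDerivAt (Icc_mem_nhds ht.1 ht.2)))
      (i1.intervalIntegrable_of_Icc zero_le_one)
    rw [← map_sub, k3, k4, bk_apply, bk_apply, hp, hq, right_inv he, right_inv he, ← map_sub,
      hBA, L.apply_symm_apply, ← qn_sq hAp] at e1
    have e2 := intervalIntegral.integral_mono_on (μ := MeasureTheory.volume) zero_le_one
      (i1.intervalIntegrable_of_Icc zero_le_one)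
      ((i2.intervalIntegrable_of_Icc zero_le_one).const_mul (qn A (y - z) * (1 + δ)))
      fun t ht => by
        rw [hBA, L.apply_symm_apply, mul_assoc]
        refine (bil_le hAp _ _).trans (mul_le_mul_of_nonneg_left ?_ (qn_nonneg _ _))
        have := (h _ (hb (mem_ball'.2 ((k5 t ht).2.trans_le (by linarith))))).2 (L (c' t))
        rwa [bk_symm, right_inv he] at this
    rw [e1, intervalIntegral.integral_const_mul] at e2
    rcases (qn_nonneg A (y - z)).eq_or_lt with k | k
    · rw [← k]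
      positivity
    · refine le_of_mul_le_mul_left ?_ k
      rw [← sq, ← mul_assoc]
      exact e2.trans (mul_le_mul_of_nonneg_left k6.le (by positivity))
  rw [dist_comm]
  refine le_of_forall_pos_le_add fun ε hε => ?_
  have k := key (min (ρ / 4) (ε / (1 + δ))) (by positivity) (min_le_left _ _)
  have k2 : (1 + δ) * min (ρ / 4) (ε / (1 + δ)) ≤ ε := by
    refine (mul_le_mul_of_nonneg_left (min_le_right _ _) (by positivity)).trans_eq ?_
    field_simp
  linarith

theorem riem_gm [CompleteSpace M] : Riem (gm L : Fld n M) :=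
  ⟨met_gm hL, properSpace_riemannian V M, approxMid_of_riemannian V M, up_gm hL, lo_gm hL⟩

end Vale.Agent.P210B
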