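import Vale.Agent.P210B.Defs

/-!
# P210B: the scalar curvature in coordinates is the sum of the sectional curvatures
-/

open Filter Topology Set Metric
open scoped ContDiff
open Vale.Agent.P366
open Vale.Agent.P366.Stmt (E Field)
open Vale.Agent.P210.R2.H53

set_option maxSynthPendingDepth 3

noncomputable section

namespace Vale.Agent.P210B

variable {n : ℕ} {V : Type} [NormedAddCommGroup V] [NormedSpace ℝ V]

/-- the basis given by the linear coordinates `L` -/
def bs (L : V ≃L[ℝ] E n) (i : Fin n) : V := L.symm (EuclideanSpace.single i 1)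

/-- the components of a field of bilinear forms in the linear coordinates `L` -/
def cmp (L : V ≃L[ℝ] E n) (G : V → V →L[ℝ] V →L[ℝ] ℝ) : Field n :=
  fun y i j => G (L.symm y) (bs L i) (bs L j)

variable {L : V ≃L[ℝ] E n} {G : V → V →L[ℝ] V →L[ℝ] ℝ}

theorem sum_single (ξ : E n) : ξ = ∑ i, ξ i • EuclideanSpace.single i (1 : ℝ) := by
  ext j; simp [Pi.single_apply]

theorem symm_eq_sum (L : V ≃L[ℝ] E n) (ξ : E n) : L.symm ξ = ∑ i, ξ i • bs L i := by
  conv_lhs => rw [sum_single ξ]
  simp only [map_sum, map_smul, bs]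

theorem eq_sum_bs (L : V ≃L[ℝ] E n) (v : V) : v = ∑ i, L v i • bs L i := by
  rw [← symm_eq_sum, L.symm_apply_apply]

theorem pd_cmp {φ : V → ℝ} {φ' : V →L[ℝ] ℝ} {y : E n} (h : HasFDerivAt φ φ' (L.symm y))
    (k : Fin n) : Stmt.pd k (fun y => φ (L.symm y)) y = φ' (bs L k) := by
  have h1 : HasFDerivAt (fun y => φ (L.symm y)) (φ'.comp (L.symm : E n →L[ℝ] V)) y :=
    h.comp y L.symm.hasFDerivAt
  rw [P366Z.pd_of_hasFDerivAt h1]
  rfl

theorem quad_cmp (B : V →L[ℝ] V →L[ℝ] ℝ) (v w : E n) :
    B (L.symm v) (L.symm w) = ∑ i, ∑ j, B (bs L i) (bs L j) * v i * w j := by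
  rw [symm_eq_sum, symm_eq_sum]
  simp only [map_sum, map_smul, _root_.sum_apply, _root_.smul_apply,
    smul_eq_mul]
  rw [Finset.sum_comm]
  refine Finset.sum_congr rfl fun i _ => ?_
  rw [Finset.mul_sum]
  exact Finset.sum_congr rfl fun j _ => by ring

theorem met_cmp (h : LocalRiem G univ) : P366Z.Met (cmp L G) where
  sm i j := (((contDiffOn_univ.1 h.smooth).comp L.symm.contDiff).clm_apply
    contDiff_const).clm_apply contDiff_const
  sy x i j := h.symm _ (mem_univ _) _ _
  pos x := by
    refine Matrix.PosDef.of_dotProduct_mulVec_pos ?_ fun v hv => ?_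
    · ext i j
      exact h.symm _ (mem_univ _) _ _
    · have h1 := h.pos (L.symm x) (mem_univ _) (L.symm (WithLp.toLp 2 v)) (by
        intro k
        apply hv
        have := L.symm.injective (k.trans (map_zero L.symm).symm)
        exact congrArg WithLp.ofLp this)
      rw [quad_cmp] at h1
      refine h1.trans_eq ?_
      simp only [dotProduct, Matrix.mulVec, star_trivial, Finset.mul_sum, Stmt.mat, cmp]
      exact Finset.sum_congr rfl fun i _ => Finset.sum_congr rfl fun j _ => by ring

theorem coord_eq (h : LocalRiem G univ) (y : E n) (v : V) (k : Fin n) :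
    L v k = ∑ l, Stmt.up (cmp L G) k l y * G (L.symm y) v (bs L l) := by
  have hA := (met_cmp (L := L) h).pos y
  have h1 : ∀ l, G (L.symm y) v (bs L l) = ∑ m, Stmt.mat (cmp L G) y l m * L v m := fun l => by
    conv_lhs => rw [eq_sum_bs L v]
    simp only [map_sum, map_smul, _root_.sum_apply, _root_.smul_apply,
      smul_eq_mul]
    refine Finset.sum_congr rfl fun m _ => ?_
    rw [h.symm _ (mem_univ _), mul_comm]
    rfl
  have h2 : (Stmt.mat (cmp L G) y)⁻¹.mulVec ((Stmt.mat (cmp L G) y).mulVec fun m => L v m) =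
      fun m => L v m := by
    rw [Matrix.mulVec_mulVec, Matrix.nonsing_inv_mul _ hA.det_pos.ne'.isUnit, Matrix.one_mulVec]
  simp only [h1]
  exact (congrFun h2 k).symm

variable [FiniteDimensional ℝ V]

theorem chr_cmp (h : LocalRiem G univ) (k i j : Fin n) : Stmt.chr (cmp L G) k i j =
    fun y => L (chris G (L.symm y) (bs L i) (bs L j)) k := by
  funext y
  have h1 : ∀ a b c, Stmt.pd a (fun y => cmp L G y b c) y =
      fderiv ℝ G (L.symm y) (bs L a) (bs L b) (bs L c) := fun a b c =>
    pd_cmp (φ := fun z => G z (bs L b) (bs L c)) (h.hasFDerivAt_apply (mem_univ _) _ _) a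
  rw [coord_eq h y, Stmt.chr, Finset.sum_div]
  refine Finset.sum_congr rfl fun l _ => ?_
  have h2 := h.chris_spec (mem_univ (L.symm y)) (bs L i) (bs L j) (bs L l)
  rw [h1, h1, h1, mul_div_assoc]
  congr 1
  rw [koszul] at h2
  linarith

theorem pd_chr_cmp (h : LocalRiem G univ) (m k i j : Fin n) (y : E n) :
    Stmt.pd m (Stmt.chr (cmp L G) k i j) y =
      L (fderiv ℝ (chris G) (L.symm y) (bs L m) (bs L i) (bs L j)) k := by
  rw [chr_cmp h]
  have h1 := ((h.hasFDerivAt_chris (mem_univ (L.symm y))).clm_apply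
    (hasFDerivAt_const (bs L i) _)).clm_apply (hasFDerivAt_const (bs L j) _)
  have h2 := (((EuclideanSpace.proj (𝕜 := ℝ) k).comp (L : V →L[ℝ] E n)).hasFDerivAt).comp _ h1
  rw [pd_cmp (φ := fun z => L (chris G z (bs L i) (bs L j)) k) h2]
  simp

/-- the curvature -/
def Rm (G : V → V →L[ℝ] V →L[ℝ] ℝ) (z u v w : V) : V :=
  fderiv ℝ (chris G) z u v w - fderiv ℝ (chris G) z v u w + chris G z u (chris G z v w) -
    chris G z v (chris G z u w)

theorem secG_eq {U : Set V} (h : LocalRiem G U) {z : V} (hz : z ∈ U) (a b : V) :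
    secG G z a b = G z (Rm G z a b b) a := by
  have h1 := h.fderiv_chris hz a b b a
  have h2 := h.fderiv_chris hz b a b a
  have e1 := h.fderiv2_symm hz b a a b
  have e2 : fderiv ℝ (fderiv ℝ G) z a b b a = fderiv ℝ (fderiv ℝ G) z b a b a := by
    rw [h.fderiv2_comm hz]
  have e3 := h.symm z hz (chris G z a a) (chris G z b b)
  rw [h.chris_symm hz b a] at h2
  simp only [secG, Rm, map_add, map_sub, _root_.add_apply,
    _root_.sub_apply]
  linarith

omit [FiniteDimensional ℝ V] in
theorem trace_onb (h : LocalRiem G univ) (y : E n) {ι : Type} [Fintype ι] [DecidableEq ι]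
    (b : Module.Basis ι ℝ V) (hb : ∀ i j, G (L.symm y) (b i) (b j) = if i = j then 1 else 0)
    (B : V →ₗ[ℝ] V →ₗ[ℝ] ℝ) :
    ∑ i, B (b i) (b i) = ∑ k, ∑ l, Stmt.up (cmp L G) k l y * B (bs L k) (bs L l) := by
  have h1 : ∀ v, v = ∑ i, G (L.symm y) (b i) v • b i := fun v => by
    conv_lhs => rw [← b.sum_repr v]
    refine Finset.sum_congr rfl fun i _ => ?_
    congr 1
    conv_rhs => rw [← b.sum_repr v]
    simp only [map_sum, map_smul, hb, smul_eq_mul, mul_ite, mul_one, mul_zero,
      Finset.sum_ite_eq, Finset.mem_univ, if_true]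
  have h2 : ∀ i, B (b i) (b i) = ∑ k, ∑ l, Stmt.up (cmp L G) k l y *
      (G (L.symm y) (b i) (bs L l) * B (bs L k) (b i)) := fun i => by
    have : B (b i) (b i) = B (∑ k, L (b i) k • bs L k) (b i) := by rw [← eq_sum_bs]
    rw [this]
    simp only [map_sum, map_smul, LinearMap.sum_apply, LinearMap.smul_apply, smul_eq_mul]
    refine Finset.sum_congr rfl fun k _ => ?_
    rw [coord_eq h y, Finset.sum_mul]
    exact Finset.sum_congr rfl fun l _ => by ring
  simp only [h2]
  rw [Finset.sum_comm]
  refine Finset.sum_congr rfl fun k _ => ?_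
  rw [Finset.sum_comm]
  refine Finset.sum_congr rfl fun l _ => ?_
  rw [← Finset.mul_sum]
  congr 1
  conv_rhs => rw [h1 (bs L l)]
  simp only [map_sum, map_smul, smul_eq_mul]

theorem scal_cmp (h : LocalRiem G univ) (y : E n) {ι : Type} [Fintype ι] [DecidableEq ι]
    (b : Module.Basis ι ℝ V) (hb : ∀ i j, G (L.symm y) (b i) (b j) = if i = j then 1 else 0) :
    ∑ i, ∑ j, secG G (L.symm y) (b i) (b j) = Stmt.scal (cmp L G) y := by
  set z := L.symm y with hz
  have h1 : ∀ v w, ∑ i, G z (Rm G z (b i) v w) (b i) = ∑ k, L (Rm G z (bs L k) v w) k :=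
    fun v w => by
      have := trace_onb h y b hb (LinearMap.mk₂ ℝ (fun u p => G z (Rm G z u v w) p)
        (by intro u u' p; simp only [Rm, map_add, map_sub, _root_.add_apply,
          _root_.sub_apply]; ring)
        (by intro r u p; simp only [Rm, map_add, map_sub, map_smul, _root_.add_apply,
          _root_.sub_apply, _root_.smul_apply, smul_eq_mul]; ring)
        (by intro u p p'; simp only [map_add])
        (by intro r u p; simp only [map_smul]))
      simp only [LinearMap.mk₂_apply] at this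
      rw [this]
      exact Finset.sum_congr rfl fun k _ => (coord_eq h y _ k).symm
  have h2 := trace_onb h y b hb (LinearMap.mk₂ ℝ (fun w v => ∑ k, L (Rm G z (bs L k) v w) k)
    (by
      intro w w' v
      rw [← Finset.sum_add_distrib]
      refine Finset.sum_congr rfl fun k _ => ?_
      simp only [Rm, map_add, map_sub, PiLp.add_apply, PiLp.sub_apply]
      ring)
    (by
      intro r w v
      rw [smul_eq_mul, Finset.mul_sum]
      refine Finset.sum_congr rfl fun k _ => ?_
      simp only [Rm, map_add, map_sub, map_smul, PiLp.add_apply, PiLp.sub_apply, PiLp.smul_apply,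
        smul_eq_mul]
      ring)
    (by
      intro w v v'
      rw [← Finset.sum_add_distrib]
      refine Finset.sum_congr rfl fun k _ => ?_
      simp only [Rm, map_add, map_sub, PiLp.add_apply, PiLp.sub_apply,
        _root_.add_apply]
      ring)
    (by
      intro r w v
      rw [smul_eq_mul, Finset.mul_sum]
      refine Finset.sum_congr rfl fun k _ => ?_
      simp only [Rm, map_add, map_sub, map_smul, PiLp.add_apply, PiLp.sub_apply, PiLp.smul_apply,
        smul_eq_mul, _root_.smul_apply]
      ring))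
  simp only [LinearMap.mk₂_apply] at h2
  simp only [secG_eq h (mem_univ z)]
  rw [Finset.sum_comm]
  simp only [h1]
  rw [h2, Stmt.scal]
  refine Finset.sum_congr rfl fun i _ => Finset.sum_congr rfl fun j _ => ?_
  congr 1
  refine Finset.sum_congr rfl fun k _ => ?_
  have s : ∀ k i j, Stmt.chr (cmp L G) k i j = Stmt.chr (cmp L G) k j i := fun k i j => by
    rw [chr_cmp h, chr_cmp h]
    funext p
    rw [h.chris_symm (mem_univ _)]
  have e : ∀ a c d, L (chris G z (bs L a) (chris G z (bs L c) (bs L d))) k =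
      ∑ l, Stmt.chr (cmp L G) k a l y * Stmt.chr (cmp L G) l d c y := fun a c d => by
    conv_lhs => rw [eq_sum_bs L (chris G z (bs L c) (bs L d))]
    simp only [map_sum, map_smul, WithLp.ofLp_sum, WithLp.ofLp_smul, Finset.sum_apply,
      Pi.smul_apply, smul_eq_mul]
    refine Finset.sum_congr rfl fun l _ => ?_
    rw [s l d c, chr_cmp h, chr_cmp h, mul_comm]
  rw [s k i j, s k i k, pd_chr_cmp h, pd_chr_cmp h, Finset.sum_sub_distrib, ← e, ← e]
  simp only [Rm, map_add, map_sub, PiLp.add_apply, PiLp.sub_apply]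
  ring

end Vale.Agent.P210B
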