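import Vale.Agent.P210B.Lip
import Vale.Agent.P366N.Mk0
import Mathlib.Analysis.Calculus.BumpFunction.Convolution

/-!
# P210B: smoothing of Lipschitz functions with control of the gradient
-/

open MeasureTheory Filter Topology Set Metric ContinuousLinearMap
open scoped ContDiff Manifold Convolution
open Vale.Agent.P366
open Vale.Agent.P366.Stmt (E Field)
open Vale.Agent.P366M Vale.Agent.P366N

noncomputable section

namespace Vale.Agent.P210B

variable {n : ℕ}

theorem moll {ψ : E n → ℝ} (hψ : Continuous ψ) {A : Fin n → Fin n → ℝ} {K r : ℝ} {y₀ : E n}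
    (hK : 0 ≤ K) (hr : 0 < r)
    (h : ∀ y ∈ ball y₀ (2 * r), ∀ z ∈ ball y₀ (2 * r), ψ y - ψ z ≤ K * qn A (y - z)) {η : ℝ}
    (hη : 0 < η) : ∃ v : E n → ℝ, ContDiff ℝ ∞ v ∧ ∀ y ∈ ball y₀ r, |v y - ψ y| ≤ η ∧
      ∀ w, fderiv ℝ v y w ≤ K * qn A w := by
  obtain ⟨C, hC, c⟩ := qn_le_norm A
  set s := min r (η / (K * C + 1)) with hs
  have s0 : 0 < s := lt_min hr (by positivity)
  let φ : ContDiffBump (0 : E n) := ⟨s / 2, s, half_pos s0, half_lt_self s0⟩
  have hv : ContDiff ℝ ∞ (φ.normed volume ⋆[lsmul ℝ ℝ, volume] ψ) :=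
    φ.hasCompactSupport_normed.contDiff_convolution_left _ φ.contDiff_normed hψ.locallyIntegrable
  have hb : ∀ y ∈ ball y₀ r, ∀ z ∈ ball y s, z ∈ ball y₀ (2 * r) := fun y hy z hz => by
    have := min_le_left r (η / (K * C + 1))
    rw [mem_ball] at hy hz ⊢
    linarith [dist_triangle z y y₀]
  refine ⟨_, hv, fun y hy => ⟨?_, fderiv_le (hv.differentiable (by simp) y) ?_⟩⟩
  · refine φ.dist_normed_convolution_le (μ := volume) hψ.aestronglyMeasurable fun z hz => ?_
    have a := h z (hb y hy z hz) y (hb y hy y (mem_ball_self s0))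
    have b := h y (hb y hy y (mem_ball_self s0)) z (hb y hy z hz)
    rw [qn_sub_comm] at b
    have d : K * qn A (z - y) ≤ η := by
      have e := (lt_div_iff₀ (by positivity)).1
        ((mem_ball_iff_norm.1 hz).trans_le (min_le_right r (η / (K * C + 1))))
      nlinarith [mul_le_mul_of_nonneg_left (c (z - y)) hK, norm_nonneg (z - y)]
    exact abs_le.2 ⟨by linarith, by linarith⟩
  · filter_upwards [isOpen_ball.mem_nhds hy] with z hz
    have i : ∀ p, Integrable fun t => φ.normed volume t * ψ (p - t) := fun p =>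
      (φ.hasCompactSupport_normed.convolutionExists_left (lsmul ℝ ℝ) φ.continuous_normed
        hψ.locallyIntegrable p).integrable
    simp only [convolution_def, lsmul_apply, smul_eq_mul]
    rw [← integral_sub (i z) (i y), ← one_mul (K * _), ← φ.integral_normed (μ := volume),
      ← integral_mul_const]
    refine integral_mono ((i z).sub (i y)) (φ.integrable_normed.mul_const _) fun t => ?_
    simp only [← mul_sub]
    by_cases ht : t ∈ ball (0 : E n) s
    · have k : ∀ p, p - t ∈ ball p s := fun p => by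
        rwa [mem_ball_iff_norm, sub_sub_cancel_left, norm_neg, ← mem_ball_zero_iff]
      have a := h _ (hb z hz _ (k z)) _ (hb y hy _ (k y))
      rw [sub_sub_sub_cancel_right] at a
      exact mul_le_mul_of_nonneg_left a (φ.nonneg_normed t)
    · have : φ.normed volume t = 0 := by
        by_contra k
        exact ht (φ.support_normed_eq (μ := volume) ▸ Function.mem_support.2 k)
      simp [this]

variable {M : Type} [Mf0 n M] {g : Fld n M} {f : M → ℝ}

/-- gluing of approximations with gradient bounds -/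
theorem glue_gn (hg : Met g) {K : M → ℝ} (hK : ∀ z, 0 ≤ K z)
    (H : ∀ x : M, ∃ U ∈ 𝓝 x, ∀ η > (0 : ℝ), ∃ F : M → ℝ,
      ∀ z ∈ U, CAt ∞ F z ∧ |F z - f z| ≤ η ∧ gn g F z ≤ K z) {ε : ℝ} (hε : 0 < ε) :
    ∃ ρ : M → ℝ, Smooth ρ ∧ (∀ z, |ρ z - f z| ≤ ε) ∧ ∀ z, gn g ρ z ≤ K z + ε := by
  have := isManifold (n := n) (M := M)
  have : LocallyCompactSpace M := ChartedSpace.locallyCompactSpace (E n) M
  choose U hU H using H
  choose T hT h1 h2 using fun x => local_compact_nhds (hU x)
  obtain ⟨s, hs, hc⟩ := TopologicalSpace.countable_cover_nhds (f := fun x => interior (T x))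
    fun x => interior_mem_nhds.2 (hT x)
  obtain ⟨c, rfl⟩ := hs.exists_eq_range (by
    obtain ⟨x⟩ : Nonempty M := inferInstance
    obtain ⟨y, hy, -⟩ := mem_iUnion₂.1 (hc.ge (mem_univ x))
    exact ⟨y, hy⟩)
  rw [biUnion_range] at hc
  obtain ⟨φ, hφ⟩ := SmoothPartitionOfUnity.exists_isSubordinate 𝓘(ℝ, E n) isClosed_univ
    (fun k => interior (T (c k))) (fun _ => isOpen_interior) hc.ge
  have sφ : ∀ k, Smooth (φ k) := fun k => cd_of_contMDiff (φ k).contMDiff
  choose B hB using fun k => (h2 (c k)).exists_bound_of_continuousOn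
    (hg.cont_gn ((sφ k).of_le one_le_oo)).continuousOn
  have p : ∀ k : ℕ, 0 < ε * (1 / 2) ^ (k + 1) / (|B k| + 1) := fun k => by positivity
  choose F hF using fun k => H (c k) _ (p k)
  have m : ∀ {z k}, k ∈ φ.fintsupport z → z ∈ T (c k) := fun hk =>
    interior_subset (hφ _ ((φ.mem_fintsupport_iff _ _).1 hk))
  have q : ∀ k : ℕ, ε * (1 / 2) ^ (k + 1) / (|B k| + 1) ≤ ε := fun k => by
    rw [div_le_iff₀ (by positivity)]
    have := pow_le_one₀ (n := k + 1) (a := (1 / 2 : ℝ)) (by norm_num) (by norm_num)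
    nlinarith [abs_nonneg (B k)]
  have e1 : ∀ z, ∀ᶠ w in 𝓝 z, ∑ᶠ k, φ k w • F k w = ∑ k ∈ φ.fintsupport z, φ k w * F k w ∧
      ∑ k ∈ φ.fintsupport z, φ k w = 1 := fun z => by
    filter_upwards [φ.eventually_finsupport_subset z] with w hw
    refine ⟨finsum_eq_sum_of_support_subset _ fun k hk => hw ((φ.mem_finsupport _).2 fun l => hk ?_),
      φ.sum_finsupport' w (mem_univ w) hw⟩
    simp only [l, zero_smul]
  have e2 : ∀ z, CAt ∞ (fun w => ∑ᶠ k, φ k w • F k w) z := fun z =>
    (CAt.sum fun k hk => (sφ k).contDiffAt.mul (hF k z (h1 _ (m hk))).1).congr_of_eventuallyEq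
      ((e1 z).mono fun w hw => hw.1)
  refine ⟨fun w => ∑ᶠ k, φ k w • F k w, cd_of_cAt le_rfl e2, fun z => ?_, fun z => ?_⟩
  · obtain ⟨a, b⟩ := (e1 z).self_of_nhds
    beta_reduce
    rw [a, ← one_mul (f z), ← one_mul ε, ← b, Finset.sum_mul, Finset.sum_mul,
      ← Finset.sum_sub_distrib]
    refine (Finset.abs_sum_le_sum_abs _ _).trans (Finset.sum_le_sum fun k hk => ?_)
    rw [← mul_sub, abs_mul, abs_of_nonneg (φ.nonneg k z)]
    exact mul_le_mul_of_nonneg_left ((hF k z (h1 _ (m hk))).2.1.trans (q k)) (φ.nonneg k z)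
  · refine gn_le_of_fd hg ((e2 z).differentiableAt (by simp)) (add_nonneg (hK z) hε.le) fun v => ?_
    have dF : ∀ k ∈ φ.fintsupport z, DAt (F k) z := fun k hk =>
      (hF k z (h1 _ (m hk))).1.differentiableAt (by simp)
    have d1 : HasFDerivAt (loc (ch z) fun w => ∑ k ∈ φ.fintsupport z, φ k w * F k w) _ (pt z) :=
      HasFDerivAt.fun_sum fun k hk => ((sφ k).diff z).hasFDerivAt.mul (dF k hk).hasFDerivAt
    have d2 : HasFDerivAt (loc (ch z) fun w => ∑ k ∈ φ.fintsupport z, φ k w) _ (pt z) :=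
      HasFDerivAt.fun_sum fun k _ => ((sφ k).diff z).hasFDerivAt
    have a1 := (fd_congr ((e1 z).mono fun w hw => hw.1)).trans d1.fderiv
    have a2 := ((fd_congr ((e1 z).mono fun w hw => hw.2)).trans (fd_const 1)).symm.trans d2.fderiv
    have a3 := congrArg (fun L : E n →L[ℝ] ℝ => f z * L v) a2
    simp only [_root_.zero_apply, mul_zero, _root_.sum_apply, Finset.mul_sum] at a3
    rw [a1, add_mul, ← sub_zero (DFunLike.coe _ v), a3]
    simp only [_root_.sum_apply, _root_.add_apply, _root_.smul_apply, smul_eq_mul, loc_pt,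
      symm_pt]
    rw [← Finset.sum_sub_distrib]
    have Q := qn_nonneg (g z) v
    have g1 : ∑ k ∈ φ.fintsupport z, (1 / 2 : ℝ) ^ (k + 1) ≤ 1 := by
      have s1 : Summable fun k : ℕ => (1 / 2 : ℝ) ^ (k + 1) :=
        (summable_nat_add_iff 1).2 summable_geometric_two
      refine (s1.sum_le_tsum _ fun _ _ => by positivity).trans_eq ?_
      simp only [pow_succ]
      rw [tsum_mul_right, tsum_geometric_two]
      norm_num
    calc _ ≤ ∑ k ∈ φ.fintsupport z, (φ k z * (K z * qn (g z) v) +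
          (1 / 2 : ℝ) ^ (k + 1) * (ε * qn (g z) v)) := Finset.sum_le_sum fun k hk => ?_
      _ ≤ _ := by
        rw [Finset.sum_add_distrib, ← Finset.sum_mul, ← Finset.sum_mul, (e1 z).self_of_nhds.2,
          one_mul]
        nlinarith [mul_nonneg hε.le Q]
    obtain ⟨-, b1, b2⟩ := hF k z (h1 _ (m hk))
    have b3 := mul_le_mul_of_nonneg_left ((fd_le hg (dF k hk) v).trans
      (mul_le_mul_of_nonneg_right b2 Q)) (φ.nonneg k z)
    have b4 : gn g (φ k) z ≤ |B k| + 1 :=
      ((le_abs_self _).trans ((hB k z (m hk)).trans (le_abs_self _))).trans (by linarith)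
    have b5 := mul_le_mul b1 ((abs_fd_le hg ((sφ k).diff z) v).trans
      (mul_le_mul_of_nonneg_right b4 Q)) (abs_nonneg _) (p k).le
    rw [← abs_mul, ← mul_assoc, div_mul_cancel₀ _ (by positivity)] at b5
    have b6 := (le_abs_self _).trans b5
    linarith

/-- **smoothing** with a continuous local Lipschitz constant `l` -/
theorem Riem.smooth' (h : Riem g) (hf : Continuous f) {l : M → ℝ} (hl : Continuous l)
    (l0 : ∀ x, 0 ≤ l x) (H : ∀ x, ∀ δ > (0 : ℝ), ∃ U ∈ 𝓝 x, ∀ p ∈ U, ∀ q ∈ U,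
      f p - f q ≤ (l x + δ) * dist p q) {ε : ℝ} (hε : 0 < ε) :
    ∃ ρ : M → ℝ, Smooth ρ ∧ (∀ z, |ρ z - f z| ≤ ε) ∧ ∀ z, gn g ρ z ≤ l z + ε := by
  obtain ⟨ρ, h1, h2, h3⟩ := glue_gn (f := f) h.met (K := fun z => l z + ε / 2)
    (fun z => add_nonneg (l0 z) (by positivity)) (fun x => by
      have he := ch_mem x
      have a0 := l0 x
      have c : ContinuousAt (fun δ : ℝ => (l x + δ) * (1 + δ) * (1 + δ) + δ) 0 := by fun_prop
      obtain ⟨δ, d1, d0⟩ := ((c.tendsto.mono_left nhdsWithin_le_nhds).eventually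
        (gt_mem_nhds (a := l x + ε / 2) (by simpa using hε)) |>.and
          (self_mem_nhdsWithin (s := Ioi 0))).exists
      have d0' : 0 < δ := d0
      obtain ⟨U, hU, k1⟩ := H x δ d0'
      obtain ⟨r, hr, k2⟩ := h.up x δ d0'
      obtain ⟨s, hs, k3⟩ := Metric.eventually_nhds_iff_ball.1 ((near (h.met.rep he) (pt x) d0').and
        ((ev_pt.1 (Eventually.and hU (hl.continuousAt.eventually
          (lt_mem_nhds (sub_lt_self (l x) d0'))))).and (ball_mem_nhds (pt x) hr)))
      refine ⟨(ch x).symm '' ball (pt x) (s / 2), ?_, fun η hη => ?_⟩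
      · have := (openEmb_symm he).isOpenMap.image_mem_nhds (ball_mem_nhds (pt x) (half_pos hs))
        rwa [symm_pt] at this
      obtain ⟨v, v1, v2⟩ := moll (cont_loc he hf) (A := g x) (K := (l x + δ) * (1 + δ))
        (y₀ := pt x) (by positivity) (half_pos hs) (fun y hy z hz => by
          rw [mul_div_cancel₀ _ two_ne_zero] at hy hz
          rw [mul_assoc]
          exact (k1 _ (k3 y hy).2.1.1 _ (k3 z hz).2.1.1).trans (mul_le_mul_of_nonneg_left
            (k2 y (k3 y hy).2.2 z (k3 z hz).2.2) (by positivity))) hη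
      have e : loc (ch x) (fun z => v (ch x z)) = v := funext fun y => by
        rw [loc_apply, right_inv he]
      refine ⟨fun z => v (ch x z), ?_⟩
      rintro _ ⟨y, hy, rfl⟩
      have w := k3 y (ball_subset_ball (half_le_self hs.le) hy)
      have c1 : CAt ∞ (fun z => v (ch x z)) ((ch x).symm y) :=
        cAt_of_loc le_rfl he (by rw [e]; exact v1.contDiffAt)
      refine ⟨c1, by beta_reduce; rw [right_inv he]; exact (v2 y hy).1, ?_⟩
      rw [← gn_rep he g (c1.differentiableAt (by simp)), e]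
      refine (cn_le ((h.met.rep he).pos y) (K := (l x + δ) * (1 + δ) * (1 + δ)) (by positivity)
        fun t => ?_).trans (by linarith [w.2.1.2])
      have b := (v2 y hy).2 t
      rw [P366Z.fderiv_eq_sum (v1.differentiable (by simp) y)] at b
      have b' := (w.1 t).2
      rw [rep_pt] at b'
      rw [mul_assoc]
      exact (Finset.sum_congr rfl fun i _ => mul_comm _ _).trans_le
        (b.trans (mul_le_mul_of_nonneg_left b' (by positivity)))) (half_pos hε)
  exact ⟨ρ, h1, fun z => (h2 z).trans (half_le_self hε.le), fun z => by linarith [h3 z]⟩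

/-- **smoothing** of Lipschitz functions -/
theorem Riem.smooth (h : Riem g) {L : ℝ} (hL : 0 ≤ L) (H : ∀ p q, f p - f q ≤ L * dist p q)
    {ε : ℝ} (hε : 0 < ε) :
    ∃ ρ : M → ℝ, Smooth ρ ∧ (∀ z, |ρ z - f z| ≤ ε) ∧ ∀ z, gn g ρ z ≤ L + ε :=
  h.smooth' (LipschitzWith.of_le_add_mul' L fun p q => by linarith [H p q]).continuous
    continuous_const (fun _ => hL) (fun _ δ hδ => ⟨univ, univ_mem, fun p _ q _ =>
      (H p q).trans (mul_le_mul_of_nonneg_right (by linarith) dist_nonneg)⟩) hε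

/-- a smooth approximation of the distance from a point -/
theorem Riem.smooth_dist (h : Riem g) (x : M) {ε : ℝ} (hε : 0 < ε) :
    ∃ ρ : M → ℝ, Smooth ρ ∧ (∀ z, |ρ z - dist z x| ≤ ε) ∧ ∀ z, gn g ρ z ≤ 1 + ε :=
  h.smooth zero_le_one (fun p q => by linarith [dist_triangle p q x]) hε

/-- a smooth approximation of the distance from a set -/
theorem Riem.smooth_infDist (h : Riem g) (S : Set M) {ε : ℝ} (hε : 0 < ε) :
    ∃ ρ : M → ℝ, Smooth ρ ∧ (∀ z, |ρ z - infDist z S| ≤ ε) ∧ ∀ z, gn g ρ z ≤ 1 + ε :=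
  h.smooth zero_le_one (fun p q => by
    linarith [infDist_le_infDist_add_dist (s := S) (x := p) (y := q)]) hε

end Vale.Agent.P210B
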